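import Mathlib
set_option autoImplicit false
namespace Crest.Agent.Helper82
open Encodable Denumerable

theorem encode_int_ofNat (n : ℕ) : encode (Int.ofNat n) = 2 * n := by
  rfl

theorem encode_int_negSucc (n : ℕ) : encode (Int.negSucc n) = 2 * n + 1 := by
  rfl

theorem primrec_int_ofNat : Primrec Int.ofNat :=
  Primrec.encode_iff.1 (Primrec.nat_double.of_eq fun n => (encode_int_ofNat n).symm)

theorem primrec_int_natCast : Primrec (fun n : ℕ => (n : ℤ)) := primrec_int_ofNat

theorem primrec_int_negSucc : Primrec Int.negSucc :=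
  Primrec.encode_iff.1 (Primrec.nat_double_succ.of_eq fun n => (encode_int_negSucc n).symm)

theorem primrec_int_toSum : Primrec (Equiv.intEquivNatSumNat : ℤ → ℕ ⊕ ℕ) :=
  Primrec.encode_iff.1 (Primrec.encode.of_eq fun z => by cases z <;> rfl)

/-- case analysis on an integer is primitive recursive -/
theorem primrec_int_cases {α σ : Type*} [Primcodable α] [Primcodable σ] {f : α → ℤ}
    {g : α → ℕ → σ} {h : α → ℕ → σ}
    (hf : Primrec f) (hg : Primrec₂ g) (hh : Primrec₂ h) :
    Primrec fun a => (Int.casesOn (f a) (g a) (h a) : σ) :=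
  (Primrec.sumCasesOn (primrec_int_toSum.comp hf) hg hh).of_eq fun a => by
    cases f a <;> rfl

theorem primrec_int_toNat : Primrec Int.toNat :=
  (primrec_int_cases (f := id) (g := fun _ n => n) (h := fun _ _ => 0) Primrec.id
    Primrec.snd.to₂ (Primrec.const 0).to₂).of_eq fun z => by cases z <;> rfl

/-- `(-z).toNat` -/
def negPart (z : ℤ) : ℕ := (-z).toNat

theorem negPart_ofNat (n : ℕ) : negPart (Int.ofNat n) = 0 := by
  simp [negPart]
theorem negPart_negSucc (n : ℕ) : negPart (Int.negSucc n) = n + 1 := by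
  simp [negPart, Int.neg_negSucc]

theorem primrec_negPart : Primrec negPart :=
  (primrec_int_cases (f := id) (g := fun _ _ => 0) (h := fun _ n => n + 1) Primrec.id
    (Primrec.const 0).to₂ (Primrec.succ.comp Primrec.snd).to₂).of_eq fun z => by
      cases z
      · exact (negPart_ofNat _).symm
      · exact (negPart_negSucc _).symm

theorem primrec_int_natAbs : Primrec Int.natAbs :=
  (primrec_int_cases (f := id) (g := fun _ n => n) (h := fun _ n => n + 1) Primrec.id
    Primrec.snd.to₂ (Primrec.succ.comp Primrec.snd).to₂).of_eq fun z => by cases z <;> rfl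

theorem primrec_int_subNatNat : Primrec₂ Int.subNatNat := by
  have h : Primrec fun p : ℕ × ℕ =>
      if p.2 ≤ p.1 then Int.ofNat (p.1 - p.2) else Int.negSucc (p.2 - p.1 - 1) :=
    Primrec.ite (Primrec.nat_le.comp Primrec.snd Primrec.fst)
      (primrec_int_ofNat.comp (Primrec.nat_sub.comp Primrec.fst Primrec.snd))
      (primrec_int_negSucc.comp (Primrec.nat_sub.comp
        (Primrec.nat_sub.comp Primrec.snd Primrec.fst) (Primrec.const 1)))
  refine h.of_eq fun p => ?_
  obtain ⟨m, n⟩ := p
  simp only
  rw [Int.subNatNat_eq_coe]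
  split_ifs with hle
  · simp [Int.ofNat_eq_natCast, Nat.cast_sub hle]
  · rw [Int.negSucc_eq]; push_cast [Nat.cast_sub (show 1 ≤ n - m by omega), Nat.cast_sub (show m ≤ n by omega)]; ring

theorem int_eq_sub_parts (z : ℤ) : z = (z.toNat : ℤ) - (negPart z : ℤ) := by
  unfold negPart; omega

theorem primrec_int_sub_nat {α : Type*} [Primcodable α] {f g : α → ℕ} (hf : Primrec f)
    (hg : Primrec g) : Primrec fun a => ((f a : ℤ) - (g a : ℤ)) :=
  (primrec_int_subNatNat.comp hf hg).of_eq fun _ => Int.subNatNat_eq_coe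

theorem primrec_int_neg : Primrec (fun z : ℤ => -z) :=
  (primrec_int_sub_nat primrec_negPart primrec_int_toNat).of_eq fun z => by
    unfold negPart; omega

theorem primrec_int_add : Primrec₂ ((· + ·) : ℤ → ℤ → ℤ) :=
  (primrec_int_sub_nat
    (Primrec.nat_add.comp (primrec_int_toNat.comp Primrec.fst) (primrec_int_toNat.comp Primrec.snd))
    (Primrec.nat_add.comp (primrec_negPart.comp Primrec.fst)
      (primrec_negPart.comp Primrec.snd))).of_eq fun p => by
    unfold negPart; push_cast; omega

theorem primrec_int_sub : Primrec₂ ((· - ·) : ℤ → ℤ → ℤ) :=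
  (primrec_int_add.comp Primrec.fst (primrec_int_neg.comp Primrec.snd)).of_eq fun p => by
    simp [sub_eq_add_neg]

theorem primrec_int_mul : Primrec₂ ((· * ·) : ℤ → ℤ → ℤ) :=
  (primrec_int_sub_nat
    (Primrec.nat_add.comp
      (Primrec.nat_mul.comp (primrec_int_toNat.comp Primrec.fst) (primrec_int_toNat.comp Primrec.snd))
      (Primrec.nat_mul.comp (primrec_negPart.comp Primrec.fst) (primrec_negPart.comp Primrec.snd)))
    (Primrec.nat_add.comp
      (Primrec.nat_mul.comp (primrec_int_toNat.comp Primrec.fst) (primrec_negPart.comp Primrec.snd))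
      (Primrec.nat_mul.comp (primrec_negPart.comp Primrec.fst)
        (primrec_int_toNat.comp Primrec.snd)))).of_eq fun p => by
    obtain ⟨z, w⟩ := p
    simp only
    conv_rhs => rw [int_eq_sub_parts z, int_eq_sub_parts w]
    push_cast; ring

theorem primrec_int_le : PrimrecRel ((· ≤ ·) : ℤ → ℤ → Prop) := by
  have h : PrimrecRel fun z w : ℤ => (z - w).toNat = 0 :=
    Primrec.eq.comp (primrec_int_toNat.comp primrec_int_sub) (Primrec.const 0)
  exact h.of_eq fun z w => by omega

theorem primrec_int_lt : PrimrecRel ((· < ·) : ℤ → ℤ → Prop) := by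
  have h : PrimrecRel fun z w : ℤ => ¬ (w ≤ z) := (primrec_int_le.comp Primrec.snd Primrec.fst).not
  exact h.of_eq fun z w => by omega


/-! ### gcd -/

theorem primrec_nat_dvd : PrimrecRel ((· ∣ ·) : ℕ → ℕ → Prop) := by
  have h : PrimrecRel fun a b : ℕ => b % a = 0 :=
    Primrec.eq.comp (Primrec.nat_mod.comp Primrec.snd Primrec.fst) (Primrec.const 0)
  exact h.of_eq fun a b => (Nat.dvd_iff_mod_eq_zero ..).symm

theorem primrec_nat_gcd : Primrec₂ Nat.gcd := by
  have hp : PrimrecRel fun (x : ℕ × ℕ) (k : ℕ) => k ∣ x.1 ∧ k ∣ x.2 :=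
    PrimrecPred.and (primrec_nat_dvd.comp Primrec.snd (Primrec.fst.comp Primrec.fst))
      (primrec_nat_dvd.comp Primrec.snd (Primrec.snd.comp Primrec.fst))
  have h := Primrec.nat_findGreatest (f := fun x : ℕ × ℕ => x.1 + x.2)
    (Primrec.nat_add.comp Primrec.fst Primrec.snd) hp
  refine h.of_eq fun x => ?_
  obtain ⟨m, n⟩ := x
  simp only
  rw [Nat.findGreatest_eq_iff]
  refine ⟨?_, fun _ => ⟨Nat.gcd_dvd_left m n, Nat.gcd_dvd_right m n⟩, ?_⟩
  · rcases Nat.eq_zero_or_pos m with rfl | hm
    · simp
    · exact (Nat.gcd_le_left n hm).trans (Nat.le_add_right m n)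
  · rintro k hk hkle ⟨h1, h2⟩
    have hdvd : k ∣ Nat.gcd m n := Nat.dvd_gcd h1 h2
    rcases Nat.eq_zero_or_pos (Nat.gcd m n) with h0 | hpos
    · rw [Nat.gcd_eq_zero_iff] at h0
      obtain ⟨rfl, rfl⟩ := h0
      omega
    · exact absurd (Nat.le_of_dvd hpos hdvd) (by omega)


/-! ### integer division by a natural number -/

theorem primrec_int_ediv_nat : Primrec₂ fun (z : ℤ) (g : ℕ) => z / (g : ℤ) := by
  have h : Primrec fun a : ℤ × ℕ => (Int.casesOn a.1 (fun m => Int.ofNat (m / a.2))
      (fun m => if a.2 = 0 then (0 : ℤ) else Int.negSucc (m / a.2)) : ℤ) :=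
    primrec_int_cases (f := Prod.fst) (g := fun a m => Int.ofNat (m / a.2))
      (h := fun a m => if a.2 = 0 then (0 : ℤ) else Int.negSucc (m / a.2)) Primrec.fst
      (primrec_int_ofNat.comp (Primrec.nat_div.comp Primrec.snd (Primrec.snd.comp Primrec.fst)))
      (Primrec.ite (Primrec.eq.comp (Primrec.snd.comp Primrec.fst) (Primrec.const 0))
        (Primrec.const 0)
        (primrec_int_negSucc.comp (Primrec.nat_div.comp Primrec.snd
          (Primrec.snd.comp Primrec.fst))))
  refine h.of_eq fun a => ?_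
  obtain ⟨z, g⟩ := a
  cases z with
  | ofNat m => rfl
  | negSucc m =>
    cases g with
    | zero => rfl
    | succ n => rfl

/-! ### rationals -/

/-- The code of a rational under `Rat.instEncodable` (the basic, non-denumerable encoding). -/
def ratCode (q : ℚ) : ℕ := Nat.pair (encode q.num) q.den

theorem ratCode_eq (q : ℚ) : ratCode q = @encode ℚ Rat.instEncodable q := rfl

theorem ratCode_injective : Function.Injective ratCode := by
  intro q r h
  unfold ratCode at h
  have h' := congrArg Nat.unpair h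
  simp only [Nat.unpair_pair, Prod.mk.injEq] at h'
  exact Rat.ext (Encodable.encode_injective h'.1) h'.2

/-- decidable description of the range of `ratCode` -/
def IsRatCode (n : ℕ) : Prop :=
  0 < n.unpair.2 ∧ Nat.gcd (Int.natAbs (ofNat ℤ n.unpair.1)) n.unpair.2 = 1

instance : DecidablePred IsRatCode := fun n => by unfold IsRatCode; infer_instance

theorem isRatCode_ratCode (q : ℚ) : IsRatCode (ratCode q) := by
  unfold IsRatCode ratCode
  simp only [Nat.unpair_pair, Denumerable.ofNat_encode]
  exact ⟨q.den_pos, q.reduced⟩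

theorem isRatCode_iff (n : ℕ) : IsRatCode n ↔ ∃ q : ℚ, ratCode q = n := by
  constructor
  · rintro ⟨h1, h2⟩
    refine ⟨⟨ofNat ℤ n.unpair.1, n.unpair.2, Nat.pos_iff_ne_zero.mp h1, h2⟩, ?_⟩
    show Nat.pair (encode (ofNat ℤ n.unpair.1)) n.unpair.2 = n
    rw [Denumerable.encode_ofNat, Nat.pair_unpair]
  · rintro ⟨q, rfl⟩
    exact isRatCode_ratCode q

theorem primrecPred_isRatCode : PrimrecPred IsRatCode :=
  PrimrecPred.and
    (Primrec.nat_lt.comp (Primrec.const 0) (Primrec.snd.comp Primrec.unpair))
    (Primrec.eq.comp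
      (primrec_nat_gcd.comp
        (primrec_int_natAbs.comp ((Primrec.ofNat ℤ).comp (Primrec.fst.comp Primrec.unpair)))
        (Primrec.snd.comp Primrec.unpair))
      (Primrec.const 1))

/-- number of rational codes below `n` -/
def ratRank (n : ℕ) : ℕ := (List.range n).countP (fun y => decide (IsRatCode y))

theorem primrec_ratRank : Primrec ratRank := by
  have h : Primrec fun n : ℕ => ((List.range n).filter (fun y => decide (IsRatCode y))).length :=
    Primrec.list_length.comp ((Primrec.listFilter primrecPred_isRatCode).comp Primrec.list_range)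
  exact h.of_eq fun n => by rw [ratRank, List.countP_eq_length_filter]

theorem ratRank_eq_card (n : ℕ) : ratRank n = ((Finset.range n).filter IsRatCode).card := by
  rw [ratRank, List.countP_eq_length_filter]
  rfl

/-- The encoding of `ℚ` used by `Primrec`/`Computable` is the rank of the basic code. -/
theorem encode_rat (q : ℚ) :
    @encode ℚ (Primcodable.ofDenumerable ℚ).toEncodable q = ratRank (ratCode q) := by
  have h : @encode ℚ (Primcodable.ofDenumerable ℚ).toEncodable q =
      (List.range (ratCode q)).countP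
        (fun y => @decide (y ∈ Set.range (@encode ℚ Rat.instEncodable))
          (Encodable.decidableRangeEncode ℚ y)) := rfl
  rw [h, ratRank]
  apply List.countP_congr
  intro y _
  simp only [decide_eq_true_eq]
  rw [isRatCode_iff]
  rfl


/-- the basic code of the `n`-th rational -/
def ratNth (n : ℕ) : ℕ := ratCode (ofNat ℚ n)

theorem ratRank_ratNth (n : ℕ) : ratRank (ratNth n) = n := by
  rw [ratNth, ← encode_rat]
  exact Denumerable.encode_ofNat n

theorem ratNth_eq_iff (n b : ℕ) : ratNth n = b ↔ (IsRatCode b ∧ ratRank b = n) := by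
  constructor
  · rintro rfl
    exact ⟨isRatCode_ratCode _, ratRank_ratNth n⟩
  · rintro ⟨hb, hr⟩
    obtain ⟨q, rfl⟩ := (isRatCode_iff b).1 hb
    rw [← encode_rat] at hr
    rw [ratNth, ← hr]
    congr 1
    exact Denumerable.ofNat_encode q

theorem ratCode_natCast (k : ℕ) : ratCode (k : ℚ) = Nat.pair (2 * k) 1 := by
  unfold ratCode
  simp only [Rat.num_natCast, Rat.den_natCast]
  rfl

theorem ratNth_le (n : ℕ) : ratNth n ≤ Nat.pair (2 * n) 1 := by
  by_contra hlt
  rw [not_le] at hlt
  have hcard : n + 1 ≤ ((Finset.range (ratNth n)).filter IsRatCode).card := by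
    have hinj : Set.InjOn (fun k : ℕ => ratCode (k : ℚ)) (Finset.range (n + 1) : Set ℕ) := by
      intro a _ b _ hab
      exact Nat.cast_injective (ratCode_injective hab)
    have hsub : (Finset.range (n + 1)).image (fun k : ℕ => ratCode (k : ℚ)) ⊆
        (Finset.range (ratNth n)).filter IsRatCode := by
      intro x hx
      obtain ⟨k, hk, rfl⟩ := Finset.mem_image.1 hx
      rw [Finset.mem_filter, Finset.mem_range]
      refine ⟨lt_of_le_of_lt ?_ hlt, isRatCode_ratCode _⟩
      rw [ratCode_natCast]
      rcases Nat.lt_or_ge k n with h | h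
      · exact (Nat.pair_lt_pair_left 1 (by omega)).le
      · have : k = n := by have := Finset.mem_range.1 hk; omega
        rw [this]
    calc n + 1 = ((Finset.range (n + 1)).image (fun k : ℕ => ratCode (k : ℚ))).card := by
          rw [Finset.card_image_of_injOn hinj, Finset.card_range]
      _ ≤ _ := Finset.card_le_card hsub
  rw [← ratRank_eq_card, ratRank_ratNth] at hcard
  omega

theorem primrec_ratNth : Primrec ratNth := by
  refine Primrec.of_graph ⟨fun n => Nat.pair (2 * n) 1,
    Primrec₂.natPair.comp Primrec.nat_double (Primrec.const 1), ratNth_le⟩ ?_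
  have h : PrimrecRel fun n b : ℕ => IsRatCode b ∧ ratRank b = n :=
    PrimrecPred.and (primrecPred_isRatCode.comp Primrec.snd)
      (Primrec.eq.comp (primrec_ratRank.comp Primrec.snd) Primrec.fst)
  exact h.of_eq fun n b => (ratNth_eq_iff n b).symm

theorem primrec_ratCode : Primrec ratCode :=
  Primrec.ofNat_iff.2 primrec_ratNth

/-- numerator is primitive recursive -/
theorem primrec_rat_num : Primrec (fun q : ℚ => q.num) :=
  ((Primrec.ofNat ℤ).comp (Primrec.fst.comp (Primrec.unpair.comp primrec_ratCode))).of_eq fun q => by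
    show ofNat ℤ (Nat.unpair (Nat.pair (encode q.num) q.den)).1 = q.num
    rw [Nat.unpair_pair]
    exact Denumerable.ofNat_encode _

/-- denominator is primitive recursive -/
theorem primrec_rat_den : Primrec (fun q : ℚ => q.den) :=
  (Primrec.snd.comp (Primrec.unpair.comp primrec_ratCode)).of_eq fun q => by
    simp [ratCode]


/-- `mkRat` is primitive recursive -/
theorem primrec_mkRat : Primrec₂ mkRat := by
  have hg : Primrec fun p : ℤ × ℕ => Nat.gcd p.2 p.1.natAbs :=
    primrec_nat_gcd.comp Primrec.snd (primrec_int_natAbs.comp Primrec.fst)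
  have hnum : Primrec fun p : ℤ × ℕ => (mkRat p.1 p.2).num := by
    have h : Primrec fun p : ℤ × ℕ =>
        if p.2 = 0 then (0 : ℤ) else p.1 / ((Nat.gcd p.2 p.1.natAbs : ℕ) : ℤ) :=
      Primrec.ite (Primrec.eq.comp Primrec.snd (Primrec.const 0)) (Primrec.const 0)
        (primrec_int_ediv_nat.comp Primrec.fst hg)
    exact h.of_eq fun p => (Rat.num_mkRat p.1 p.2).symm
  have hden : Primrec fun p : ℤ × ℕ => (mkRat p.1 p.2).den := by
    have h : Primrec fun p : ℤ × ℕ =>
        if p.2 = 0 then 1 else p.2 / (Nat.gcd p.2 p.1.natAbs) :=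
      Primrec.ite (Primrec.eq.comp Primrec.snd (Primrec.const 0)) (Primrec.const 1)
        (Primrec.nat_div.comp Primrec.snd hg)
    exact h.of_eq fun p => (Rat.den_mkRat p.1 p.2).symm
  have hcode : Primrec fun p : ℤ × ℕ => ratRank (ratCode (mkRat p.1 p.2)) :=
    primrec_ratRank.comp (Primrec₂.natPair.comp (Primrec.encode.comp hnum) hden)
  exact Primrec.encode_iff.1 (hcode.of_eq fun p => (encode_rat _).symm)

theorem primrec_rat_add : Primrec₂ ((· + ·) : ℚ → ℚ → ℚ) := by
  have h : Primrec fun p : ℚ × ℚ =>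
      mkRat (p.1.num * p.2.den + p.2.num * p.1.den) (p.1.den * p.2.den) :=
    primrec_mkRat.comp
      (primrec_int_add.comp
        (primrec_int_mul.comp (primrec_rat_num.comp Primrec.fst)
          (primrec_int_natCast.comp (primrec_rat_den.comp Primrec.snd)))
        (primrec_int_mul.comp (primrec_rat_num.comp Primrec.snd)
          (primrec_int_natCast.comp (primrec_rat_den.comp Primrec.fst))))
      (Primrec.nat_mul.comp (primrec_rat_den.comp Primrec.fst) (primrec_rat_den.comp Primrec.snd))
  exact h.of_eq fun p => (Rat.add_def' p.1 p.2).symm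

theorem primrec_rat_neg : Primrec (fun q : ℚ => -q) := by
  have h : Primrec fun q : ℚ => mkRat (-q.num) q.den :=
    primrec_mkRat.comp (primrec_int_neg.comp primrec_rat_num) primrec_rat_den
  exact h.of_eq fun q => by rw [← Rat.neg_mkRat, Rat.mkRat_self]

theorem primrec_rat_sub : Primrec₂ ((· - ·) : ℚ → ℚ → ℚ) :=
  (primrec_rat_add.comp Primrec.fst (primrec_rat_neg.comp Primrec.snd)).of_eq fun p => by
    simp [sub_eq_add_neg]

theorem primrec_rat_mul : Primrec₂ ((· * ·) : ℚ → ℚ → ℚ) := by
  have h : Primrec fun p : ℚ × ℚ => mkRat (p.1.num * p.2.num) (p.1.den * p.2.den) :=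
    primrec_mkRat.comp
      (primrec_int_mul.comp (primrec_rat_num.comp Primrec.fst) (primrec_rat_num.comp Primrec.snd))
      (Primrec.nat_mul.comp (primrec_rat_den.comp Primrec.fst) (primrec_rat_den.comp Primrec.snd))
  exact h.of_eq fun p => (Rat.mul_def' p.1 p.2).symm

theorem primrec_rat_intCast : Primrec (fun z : ℤ => (z : ℚ)) := by
  have h : Primrec fun z : ℤ => mkRat z 1 := primrec_mkRat.comp Primrec.id (Primrec.const 1)
  exact h.of_eq fun z => by simp [Rat.mkRat_one]

theorem primrec_rat_natCast : Primrec (fun n : ℕ => (n : ℚ)) :=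
  (primrec_rat_intCast.comp primrec_int_natCast).of_eq fun n => by simp

theorem primrec_rat_inv : Primrec (fun q : ℚ => q⁻¹) := by
  have h : Primrec fun q : ℚ =>
      mkRat (if q.num < 0 then -(q.den : ℤ) else (q.den : ℤ)) q.num.natAbs :=
    primrec_mkRat.comp
      (Primrec.ite (primrec_int_lt.comp primrec_rat_num (Primrec.const 0))
        (primrec_int_neg.comp (primrec_int_natCast.comp primrec_rat_den))
        (primrec_int_natCast.comp primrec_rat_den))
      (primrec_int_natAbs.comp primrec_rat_num)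
  refine h.of_eq fun q => ?_
  rw [Rat.inv_def, Rat.mkRat_eq_div, Rat.divInt_eq_div, Nat.cast_natAbs]
  split_ifs with hneg
  · rw [abs_of_neg hneg]; push_cast; rw [neg_div_neg_eq]
  · rw [abs_of_nonneg (not_lt.1 hneg)]

theorem primrec_rat_div : Primrec₂ ((· / ·) : ℚ → ℚ → ℚ) :=
  (primrec_rat_mul.comp Primrec.fst (primrec_rat_inv.comp Primrec.snd)).of_eq fun p => by
    simp [div_eq_mul_inv]

theorem primrec_rat_le : PrimrecRel ((· ≤ ·) : ℚ → ℚ → Prop) := by
  have h : PrimrecRel fun a b : ℚ => a.num * b.den ≤ b.num * a.den :=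
    primrec_int_le.comp
      (primrec_int_mul.comp (primrec_rat_num.comp Primrec.fst)
        (primrec_int_natCast.comp (primrec_rat_den.comp Primrec.snd)))
      (primrec_int_mul.comp (primrec_rat_num.comp Primrec.snd)
        (primrec_int_natCast.comp (primrec_rat_den.comp Primrec.fst)))
  exact h.of_eq fun a b => (Rat.le_iff a b).symm

theorem primrec_rat_lt : PrimrecRel ((· < ·) : ℚ → ℚ → Prop) := by
  have h : PrimrecRel fun a b : ℚ => ¬ (b ≤ a) := (primrec_rat_le.comp Primrec.snd Primrec.fst).not
  exact h.of_eq fun a b => not_le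


/-! ### floor, ceiling, absolute value, powers, finite sums -/

theorem primrec_rat_floor : Primrec (fun q : ℚ => ⌊q⌋) :=
  (primrec_int_ediv_nat.comp primrec_rat_num primrec_rat_den).of_eq fun q =>
    (Rat.floor_def' (q := q)).symm

theorem primrec_rat_ceil : Primrec (fun q : ℚ => ⌈q⌉) := by
  have h : Primrec fun q : ℚ => -(-q.num / (q.den : ℤ)) :=
    primrec_int_neg.comp
      (primrec_int_ediv_nat.comp (primrec_int_neg.comp primrec_rat_num) primrec_rat_den)
  exact h.of_eq fun q => (Rat.ceil_def' q).symm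

theorem primrec_rat_natCeil : Primrec (fun q : ℚ => ⌈q⌉₊) :=
  (primrec_int_toNat.comp primrec_rat_ceil).of_eq fun q => Int.ceil_toNat q

theorem primrec_rat_natFloor : Primrec (fun q : ℚ => ⌊q⌋₊) :=
  (primrec_int_toNat.comp primrec_rat_floor).of_eq fun q => Int.floor_toNat q

theorem primrec_rat_abs : Primrec (fun q : ℚ => |q|) := by
  have h : Primrec fun q : ℚ => if q ≤ 0 then -q else q :=
    Primrec.ite (primrec_rat_le.comp Primrec.id (Primrec.const 0)) primrec_rat_neg Primrec.id
  refine h.of_eq fun q => ?_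
  split_ifs with hq
  · exact (abs_of_nonpos hq).symm
  · exact (abs_of_pos (not_le.1 hq)).symm

theorem primrec_rat_max : Primrec₂ (max : ℚ → ℚ → ℚ) := by
  have h : Primrec fun p : ℚ × ℚ => if p.1 ≤ p.2 then p.2 else p.1 :=
    Primrec.ite (primrec_rat_le.comp Primrec.fst Primrec.snd) Primrec.snd Primrec.fst
  exact h.of_eq fun p => by
    split_ifs with hq
    · exact (max_eq_right hq).symm
    · exact (max_eq_left (not_le.1 hq).le).symm

theorem primrec_rat_min : Primrec₂ (min : ℚ → ℚ → ℚ) := by
  have h : Primrec fun p : ℚ × ℚ => if p.1 ≤ p.2 then p.1 else p.2 :=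
    Primrec.ite (primrec_rat_le.comp Primrec.fst Primrec.snd) Primrec.fst Primrec.snd
  exact h.of_eq fun p => by
    split_ifs with hq
    · exact (min_eq_left hq).symm
    · exact (min_eq_right (not_le.1 hq).le).symm

theorem primrec_rat_pow : Primrec₂ (fun (q : ℚ) (n : ℕ) => q ^ n) := by
  have h : Primrec fun p : ℚ × ℕ => (Nat.rec (1 : ℚ) (fun _ ih => ih * p.1) p.2 : ℚ) :=
    Primrec.nat_rec' (f := fun p : ℚ × ℕ => p.2) (g := fun _ => (1 : ℚ))
      (h := fun p (y : ℕ × ℚ) => y.2 * p.1) Primrec.snd (Primrec.const 1)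
      (primrec_rat_mul.comp (Primrec.snd.comp Primrec.snd) (Primrec.fst.comp Primrec.fst))
  refine h.of_eq fun p => ?_
  obtain ⟨q, n⟩ := p
  induction n with
  | zero => simp
  | succ n ih => simp only at ih ⊢; rw [ih, pow_succ]

/-- finite sums of a primitive recursive family of rationals -/
theorem primrec_rat_sum_range {α : Type*} [Primcodable α] {f : α → ℕ → ℚ} {g : α → ℕ}
    (hf : Primrec₂ f) (hg : Primrec g) :
    Primrec fun a => ∑ i ∈ Finset.range (g a), f a i := by
  have h : Primrec fun a : α => (Nat.rec (0 : ℚ) (fun i ih => ih + f a i) (g a) : ℚ) :=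
    Primrec.nat_rec' (f := g) (g := fun _ => (0 : ℚ))
      (h := fun a (y : ℕ × ℚ) => y.2 + f a y.1) hg (Primrec.const 0)
      (primrec_rat_add.comp (Primrec.snd.comp Primrec.snd)
        (hf.comp Primrec.fst (Primrec.fst.comp Primrec.snd)))
  refine h.of_eq fun a => ?_
  induction g a with
  | zero => simp
  | succ n ih => simp only at ih ⊢; rw [ih, Finset.sum_range_succ]

/-- finite products of a primitive recursive family of rationals -/
theorem primrec_rat_prod_range {α : Type*} [Primcodable α] {f : α → ℕ → ℚ} {g : α → ℕ}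
    (hf : Primrec₂ f) (hg : Primrec g) :
    Primrec fun a => ∏ i ∈ Finset.range (g a), f a i := by
  have h : Primrec fun a : α => (Nat.rec (1 : ℚ) (fun i ih => ih * f a i) (g a) : ℚ) :=
    Primrec.nat_rec' (f := g) (g := fun _ => (1 : ℚ))
      (h := fun a (y : ℕ × ℚ) => y.2 * f a y.1) hg (Primrec.const 1)
      (primrec_rat_mul.comp (Primrec.snd.comp Primrec.snd)
        (hf.comp Primrec.fst (Primrec.fst.comp Primrec.snd)))
  refine h.of_eq fun a => ?_
  induction g a with
  | zero => simp
  | succ n ih => simp only at ih ⊢; rw [ih, Finset.prod_range_succ]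

theorem primrec_nat_factorial : Primrec Nat.factorial := by
  have h : Primrec fun n : ℕ => (Nat.rec 1 (fun i ih => (i + 1) * ih) n : ℕ) :=
    Primrec.nat_rec₁ (f := fun (i : ℕ) (ih : ℕ) => (i + 1) * ih) 1
      (Primrec.nat_mul.comp (Primrec.succ.comp Primrec.fst) Primrec.snd)
  refine h.of_eq fun n => ?_
  induction n with
  | zero => rfl
  | succ n ih => simp only at ih ⊢; rw [ih, Nat.factorial_succ]

/-! ### the statements of the S0170 interface (`Helper21.BoxFlow.Spec.rat_*`), as `Computable` -/

theorem rat_add : Computable₂ (fun a b : ℚ => a + b) := primrec_rat_add.to_comp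
theorem rat_neg : Computable (fun a : ℚ => -a) := primrec_rat_neg.to_comp
theorem rat_sub : Computable₂ (fun a b : ℚ => a - b) := primrec_rat_sub.to_comp
theorem rat_mul : Computable₂ (fun a b : ℚ => a * b) := primrec_rat_mul.to_comp
theorem rat_inv : Computable (fun a : ℚ => a⁻¹) := primrec_rat_inv.to_comp
theorem rat_div : Computable₂ (fun a b : ℚ => a / b) := primrec_rat_div.to_comp
theorem rat_natCast : Computable (fun n : ℕ => (n : ℚ)) := primrec_rat_natCast.to_comp
theorem rat_le : Computable₂ (fun a b : ℚ => decide (a ≤ b)) :=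
  (primrecRel_iff_primrec_decide.1 primrec_rat_le).to_comp
theorem rat_lt : Computable₂ (fun a b : ℚ => decide (a < b)) :=
  (primrecRel_iff_primrec_decide.1 primrec_rat_lt).to_comp
theorem rat_natCeil : Computable (fun a : ℚ => ⌈a⌉₊) := primrec_rat_natCeil.to_comp
theorem rat_abs : Computable (fun a : ℚ => |a|) := primrec_rat_abs.to_comp
theorem rat_pow : Computable₂ (fun (q : ℚ) (n : ℕ) => q ^ n) := primrec_rat_pow.to_comp
theorem rat_intCast : Computable (fun z : ℤ => (z : ℚ)) := primrec_rat_intCast.to_comp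
theorem rat_num : Computable (fun q : ℚ => q.num) := primrec_rat_num.to_comp
theorem rat_den : Computable (fun q : ℚ => q.den) := primrec_rat_den.to_comp
theorem rat_mkRat : Computable₂ mkRat := primrec_mkRat.to_comp

end Crest.Agent.Helper82
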