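/-
helper82: generic `Computable` combinators that Mathlib only has for `Primrec`
(list folds / maps / flatMaps with a merely computable step, finite sums of computable
functions), plus rational vector operations on `Fin n → ℚ`.
Used by the S0170 team project (WP-A3 / WP-A5b computability side).
-/
import Mathlib
import Crest.Agent.Helper82.RatComp

set_option autoImplicit false

namespace Crest.Agent.Helper82

open Computable

section generic

variable {α β γ σ : Type*} [Primcodable α] [Primcodable β] [Primcodable γ] [Primcodable σ]

/-- Left fold over a computable list with a computable step function. -/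
theorem computable_list_foldl {f : α → List β} {g : α → σ} {h : α → σ × β → σ}
    (hf : Computable f) (hg : Computable g) (hh : Computable₂ h) :
    Computable fun a => (f a).foldl (fun s b => h a (s, b)) (g a) := by
  have hstep : Computable₂ (fun (a : α) (p : ℕ × σ) =>
      Option.casesOn (motive := fun _ => σ) ((f a)[p.1]?) p.2 (fun b => h a (p.2, b))) := by
    refine Computable.option_casesOn
      (Computable.list_getElem?.comp (hf.comp Computable.fst)
        (Computable.fst.comp Computable.snd))
      (Computable.snd.comp Computable.snd) ?_
    exact (hh.comp (Computable.fst.comp Computable.fst)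
      (Computable.pair (Computable.snd.comp (Computable.snd.comp Computable.fst))
        Computable.snd)).to₂
  have hrec := Computable.nat_rec (Computable.list_length.comp hf) hg hstep
  refine hrec.of_eq fun a => ?_
  have key : ∀ n : ℕ,
      Nat.rec (motive := fun _ => σ) (g a)
        (fun y IH => Option.casesOn (motive := fun _ => σ) ((f a)[y]?) IH (fun b => h a (IH, b))) n
      = ((f a).take n).foldl (fun s b => h a (s, b)) (g a) := by
    intro n
    induction n with
    | zero => simp
    | succ n ih =>
      simp only [List.take_add_one, List.foldl_append]
      rw [← ih]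
      cases (f a)[n]? <;> simp
  rw [key, List.take_length]

/-- Map a computable function over a computable list. -/
theorem computable_list_map {f : α → List β} {g : α → β → σ}
    (hf : Computable f) (hg : Computable₂ g) :
    Computable fun a => (f a).map (g a) := by
  have h1 : Computable fun a => (f a).foldl (fun (s : List σ) b => s ++ [g a b]) [] :=
    computable_list_foldl (h := fun a (p : List σ × β) => p.1 ++ [g a p.2]) hf
      (Computable.const [])
      (Computable.list_concat.comp (Computable.fst.comp Computable.snd)
        (hg.comp Computable.fst (Computable.snd.comp Computable.snd))).to₂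
  refine h1.of_eq fun a => ?_
  have : ∀ (l : List β) (acc : List σ),
      l.foldl (fun (s : List σ) b => s ++ [g a b]) acc = acc ++ l.map (g a) := by
    intro l
    induction l with
    | nil => intro acc; simp
    | cons b l ih => intro acc; simp [ih]
  simpa using this (f a) []

/-- FlatMap a computable list-valued function over a computable list. -/
theorem computable_list_flatMap {f : α → List β} {g : α → β → List σ}
    (hf : Computable f) (hg : Computable₂ g) :
    Computable fun a => (f a).flatMap (g a) := by
  have h1 : Computable fun a => (f a).foldl (fun (s : List σ) b => s ++ g a b) [] :=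
    computable_list_foldl (h := fun a (p : List σ × β) => p.1 ++ g a p.2) hf
      (Computable.const [])
      (Computable.list_append.comp (Computable.fst.comp Computable.snd)
        (hg.comp Computable.fst (Computable.snd.comp Computable.snd))).to₂
  refine h1.of_eq fun a => ?_
  have : ∀ (l : List β) (acc : List σ),
      l.foldl (fun (s : List σ) b => s ++ g a b) acc = acc ++ l.flatMap (g a) := by
    intro l
    induction l with
    | nil => intro acc; simp
    | cons b l ih => intro acc; simp [ih]
  simpa using this (f a) []

/-- Right fold over a computable list with a computable step function. -/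
theorem computable_list_foldr {f : α → List β} {g : α → σ} {h : α → β × σ → σ}
    (hf : Computable f) (hg : Computable g) (hh : Computable₂ h) :
    Computable fun a => (f a).foldr (fun b s => h a (b, s)) (g a) := by
  have h1 : Computable fun a => ((f a).reverse).foldl (fun s b => h a (b, s)) (g a) :=
    computable_list_foldl (h := fun a (p : σ × β) => h a (p.2, p.1))
      (Computable.list_reverse.comp hf) hg
      (hh.comp Computable.fst
        (Computable.pair (Computable.snd.comp Computable.snd)
          (Computable.fst.comp Computable.snd))).to₂
  refine h1.of_eq fun a => ?_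
  simp [List.foldl_reverse]

/-- `List.range` of a computable number. -/
theorem computable_list_range {f : α → ℕ} (hf : Computable f) :
    Computable fun a => List.range (f a) :=
  (Primrec.list_range.to_comp).comp hf

/-- The list of values `[g a 0, …, g a (f a - 1)]` of a computable function. -/
theorem computable_list_map_range {f : α → ℕ} {g : α → ℕ → σ}
    (hf : Computable f) (hg : Computable₂ g) :
    Computable fun a => (List.range (f a)).map (g a) :=
  computable_list_map (computable_list_range hf) hg

/-- Primitive-recursion-style iteration with a computable step. -/
theorem computable_nat_iterate {f : α → ℕ} {g : α → σ} {h : α → σ → σ}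
    (hf : Computable f) (hg : Computable g) (hh : Computable₂ h) :
    Computable fun a => (h a)^[f a] (g a) := by
  have hrec := Computable.nat_rec hf hg
    (h := fun a (p : ℕ × σ) => h a p.2)
    (hh.comp Computable.fst (Computable.snd.comp Computable.snd)).to₂
  refine hrec.of_eq fun a => ?_
  induction f a with
  | zero => rfl
  | succ n ih => rw [Function.iterate_succ_apply', ← ih]

end generic

section sums

variable {α β : Type*} [Primcodable α] [Primcodable β]

/-- Finite sums `∑ i < g a, f a i` of a computable rational function. -/
theorem computable_rat_sum_range {f : α → ℕ → ℚ} {g : α → ℕ}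
    (hf : Computable₂ f) (hg : Computable g) :
    Computable fun a => ∑ i ∈ Finset.range (g a), f a i := by
  have hrec := Computable.nat_rec hg (Computable.const (0 : ℚ))
    (h := fun a (p : ℕ × ℚ) => p.2 + f a p.1)
    (rat_add.comp (Computable.snd.comp Computable.snd)
      (hf.comp Computable.fst (Computable.fst.comp Computable.snd))).to₂
  refine hrec.of_eq fun a => ?_
  induction g a with
  | zero => simp
  | succ n ih => rw [Finset.sum_range_succ, ← ih]

/-- Finite sums `∑ i < g a, f a i` of a computable natural-number function. -/
theorem computable_nat_sum_range {f : α → ℕ → ℕ} {g : α → ℕ}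
    (hf : Computable₂ f) (hg : Computable g) :
    Computable fun a => ∑ i ∈ Finset.range (g a), f a i := by
  have hrec := Computable.nat_rec hg (Computable.const (0 : ℕ))
    (h := fun a (p : ℕ × ℕ) => p.2 + f a p.1)
    ((Primrec.nat_add.to_comp).comp (Computable.snd.comp Computable.snd)
      (hf.comp Computable.fst (Computable.fst.comp Computable.snd))).to₂
  refine hrec.of_eq fun a => ?_
  induction g a with
  | zero => simp
  | succ n ih => rw [Finset.sum_range_succ, ← ih]

/-- Finite products `∏ i < g a, f a i` of a computable rational function. -/
theorem computable_rat_prod_range {f : α → ℕ → ℚ} {g : α → ℕ}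
    (hf : Computable₂ f) (hg : Computable g) :
    Computable fun a => ∏ i ∈ Finset.range (g a), f a i := by
  have hrec := Computable.nat_rec hg (Computable.const (1 : ℚ))
    (h := fun a (p : ℕ × ℚ) => p.2 * f a p.1)
    (rat_mul.comp (Computable.snd.comp Computable.snd)
      (hf.comp Computable.fst (Computable.fst.comp Computable.snd))).to₂
  refine hrec.of_eq fun a => ?_
  induction g a with
  | zero => simp
  | succ n ih => rw [Finset.prod_range_succ, ← ih]

/-- The sum of a computable list of rationals. -/
theorem computable_rat_list_sum {f : α → List ℚ} (hf : Computable f) :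
    Computable fun a => (f a).sum := by
  have h1 : Computable fun a => (f a).foldl (fun (s : ℚ) b => s + b) 0 :=
    computable_list_foldl (h := fun _ (p : ℚ × ℚ) => p.1 + p.2) hf (Computable.const 0)
      (rat_add.comp (Computable.fst.comp Computable.snd)
        (Computable.snd.comp Computable.snd)).to₂
  refine h1.of_eq fun a => ?_
  rw [List.sum_eq_foldl]

/-- The sum of a computable rational function over a computable list. -/
theorem computable_rat_list_map_sum {f : α → List β} {g : α → β → ℚ}
    (hf : Computable f) (hg : Computable₂ g) :
    Computable fun a => ((f a).map (g a)).sum :=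
  computable_rat_list_sum (computable_list_map hf hg)

/-- The sum of a computable list of natural numbers. -/
theorem computable_nat_list_sum {f : α → List ℕ} (hf : Computable f) :
    Computable fun a => (f a).sum := by
  have h1 : Computable fun a => (f a).foldl (fun (s : ℕ) b => s + b) 0 :=
    computable_list_foldl (h := fun _ (p : ℕ × ℕ) => p.1 + p.2) hf (Computable.const 0)
      ((Primrec.nat_add.to_comp).comp (Computable.fst.comp Computable.snd)
        (Computable.snd.comp Computable.snd)).to₂
  refine h1.of_eq fun a => ?_
  rw [List.sum_eq_foldl]

end sums

section vectors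

variable {α σ : Type*} [Primcodable α] [Primcodable σ] {n : ℕ}

/-- A function into `Fin n → σ` is computable as soon as all its components are. -/
theorem computable_pi {f : α → Fin n → σ} (hf : ∀ i, Computable fun a => f a i) :
    Computable f :=
  ((Primrec.vector_get'.to_comp).comp (Computable.vector_ofFn hf)).of_eq fun a => by
    funext i; simp

/-- Components of a computable function into `Fin n → σ` are computable. -/
theorem computable_apply {f : α → Fin n → σ} (hf : Computable f) (i : Fin n) :
    Computable fun a => f a i :=
  Computable.fin_app.comp hf (Computable.const i)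

/-- Evaluation at a computable index. -/
theorem computable_apply₂ {f : α → Fin n → σ} {g : α → Fin n} (hf : Computable f)
    (hg : Computable g) : Computable fun a => f a (g a) :=
  Computable.fin_app.comp hf hg

/-- A function into `Fin n → σ` is primitive recursive as soon as all its components are. -/
theorem primrec_pi {f : α → Fin n → σ} (hf : ∀ i, Primrec fun a => f a i) : Primrec f :=
  Primrec.fin_curry.2
    ((Primrec.fin_curry₁ (f := fun i a => f a i)).2 hf).swap

/-- Components of a primitive recursive function into `Fin n → σ`. -/
theorem primrec_apply {f : α → Fin n → σ} (hf : Primrec f) (i : Fin n) :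
    Primrec fun a => f a i :=
  Primrec.fin_app.comp hf (Primrec.const i)

theorem primrec_ratVec_add : Primrec₂ (fun v w : Fin n → ℚ => v + w) :=
  primrec_pi fun i => primrec_rat_add.comp
    (primrec_apply Primrec.fst i) (primrec_apply Primrec.snd i)

theorem primrec_ratVec_sub : Primrec₂ (fun v w : Fin n → ℚ => v - w) :=
  primrec_pi fun i => primrec_rat_sub.comp
    (primrec_apply Primrec.fst i) (primrec_apply Primrec.snd i)

theorem primrec_ratVec_neg : Primrec (fun v : Fin n → ℚ => -v) :=
  primrec_pi fun i => primrec_rat_neg.comp (primrec_apply Primrec.id i)

theorem primrec_ratVec_smul : Primrec₂ (fun (c : ℚ) (v : Fin n → ℚ) => c • v) :=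
  primrec_pi fun i => primrec_rat_mul.comp Primrec.fst (primrec_apply Primrec.snd i)

theorem primrec_ratVec_const : Primrec (fun c : ℚ => (fun _ : Fin n => c)) :=
  primrec_pi fun _ => Primrec.id

theorem primrec_ratVec_single (j : Fin n) : Primrec (fun c : ℚ => (Pi.single j c : Fin n → ℚ)) :=
  primrec_pi fun i => by
    by_cases h : i = j
    · subst h
      exact (Primrec.id (α := ℚ)).of_eq fun c => by simp
    · exact (Primrec.const (0 : ℚ)).of_eq fun c => by simp [Pi.single_eq_of_ne h]

/-- Addition of rational space-time points `ℚ × (Fin n → ℚ)`. -/
theorem primrec_ratPt_add : Primrec₂ (fun p q : ℚ × (Fin n → ℚ) => p + q) :=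
  Primrec.pair (primrec_rat_add.comp (Primrec.fst.comp Primrec.fst) (Primrec.fst.comp Primrec.snd))
    (primrec_ratVec_add.comp (Primrec.snd.comp Primrec.fst) (Primrec.snd.comp Primrec.snd))

theorem primrec_ratPt_sub : Primrec₂ (fun p q : ℚ × (Fin n → ℚ) => p - q) :=
  Primrec.pair (primrec_rat_sub.comp (Primrec.fst.comp Primrec.fst) (Primrec.fst.comp Primrec.snd))
    (primrec_ratVec_sub.comp (Primrec.snd.comp Primrec.fst) (Primrec.snd.comp Primrec.snd))

theorem primrec_ratPt_smul : Primrec₂ (fun (c : ℚ) (p : ℚ × (Fin n → ℚ)) => c • p) :=
  Primrec.pair (primrec_rat_mul.comp Primrec.fst (Primrec.fst.comp Primrec.snd))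
    (primrec_ratVec_smul.comp Primrec.fst (Primrec.snd.comp Primrec.snd))

theorem computable_ratVec_add : Computable₂ (fun v w : Fin n → ℚ => v + w) :=
  primrec_ratVec_add.to_comp
theorem computable_ratVec_sub : Computable₂ (fun v w : Fin n → ℚ => v - w) :=
  primrec_ratVec_sub.to_comp
theorem computable_ratVec_neg : Computable (fun v : Fin n → ℚ => -v) :=
  primrec_ratVec_neg.to_comp
theorem computable_ratVec_smul : Computable₂ (fun (c : ℚ) (v : Fin n → ℚ) => c • v) :=
  primrec_ratVec_smul.to_comp
theorem computable_ratPt_add : Computable₂ (fun p q : ℚ × (Fin n → ℚ) => p + q) :=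
  primrec_ratPt_add.to_comp
theorem computable_ratPt_sub : Computable₂ (fun p q : ℚ × (Fin n → ℚ) => p - q) :=
  primrec_ratPt_sub.to_comp
theorem computable_ratPt_smul : Computable₂ (fun (c : ℚ) (p : ℚ × (Fin n → ℚ)) => c • p) :=
  primrec_ratPt_smul.to_comp

end vectors

end Crest.Agent.Helper82
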